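import Mathlib

/-!
# P095: prime dimension drop algebras and central maps from them
-/

open scoped Kronecker

namespace Vale.Agent.P095

/-- Membership in `I(p,q)`: continuous, of the form `x ⊗ 1` at `0` and `1 ⊗ y` at `1`. -/
def IsDropElement (p q : ℕ)
    (f : unitInterval → Matrix (Fin p × Fin q) (Fin p × Fin q) ℂ) : Prop :=
  Continuous f ∧ (∃ x : Matrix (Fin p) (Fin p) ℂ, f 0 = x ⊗ₖ 1) ∧
    ∃ y : Matrix (Fin q) (Fin q) ℂ, f 1 = 1 ⊗ₖ y

variable {p q : ℕ} {f g : unitInterval → Matrix (Fin p × Fin q) (Fin p × Fin q) ℂ}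

theorem IsDropElement.mul (hf : IsDropElement p q f) (hg : IsDropElement p q g) :
    IsDropElement p q (f * g) := by
  obtain ⟨hc, ⟨x, hx⟩, y, hy⟩ := hf
  obtain ⟨hc', ⟨x', hx'⟩, y', hy'⟩ := hg
  exact ⟨hc.matrix_mul hc', ⟨x * x', by simp [hx, hx', ← Matrix.mul_kronecker_mul]⟩,
    y * y', by simp [hy, hy', ← Matrix.mul_kronecker_mul]⟩

theorem IsDropElement.add (hf : IsDropElement p q f) (hg : IsDropElement p q g) :
    IsDropElement p q (f + g) := by
  obtain ⟨hc, ⟨x, hx⟩, y, hy⟩ := hf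
  obtain ⟨hc', ⟨x', hx'⟩, y', hy'⟩ := hg
  exact ⟨hc.add hc', ⟨x + x', by simp [hx, hx', Matrix.add_kronecker]⟩,
    y + y', by simp [hy, hy', Matrix.kronecker_add]⟩

theorem IsDropElement.scalar (p q : ℕ) (c : ℂ) : IsDropElement p q
    (algebraMap ℂ (unitInterval → Matrix (Fin p × Fin q) (Fin p × Fin q) ℂ) c) :=
  ⟨continuous_const, ⟨c • 1, by simp [Algebra.algebraMap_eq_smul_one, Matrix.smul_kronecker]⟩,
    c • 1, by simp [Algebra.algebraMap_eq_smul_one, Matrix.kronecker_smul]⟩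

theorem IsDropElement.conj (hf : IsDropElement p q f) : IsDropElement p q (star f) := by
  obtain ⟨hc, ⟨x, hx⟩, y, hy⟩ := hf
  exact ⟨hc.matrix_conjTranspose, ⟨x.conjTranspose, by
      simp [hx, Matrix.star_eq_conjTranspose, Matrix.conjTranspose_kronecker]⟩, y.conjTranspose,
    by simp [hy, Matrix.star_eq_conjTranspose, Matrix.conjTranspose_kronecker]⟩

/-- The dimension drop algebra `I(p,q)`. -/
def dropAlgebra (p q : ℕ) :
    StarSubalgebra ℂ (unitInterval → Matrix (Fin p × Fin q) (Fin p × Fin q) ℂ) where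
  carrier := {f | IsDropElement p q f}
  mul_mem' := IsDropElement.mul
  add_mem' := IsDropElement.add
  algebraMap_mem' := IsDropElement.scalar p q
  star_mem' := IsDropElement.conj

/-- `ψ` restricts to a unital star homomorphism on the elements satisfying `s`. -/
def IsUnitalHomOn {X A : Type*} [Ring X] [Algebra ℂ X] [StarRing X] [CStarAlgebra A] (s : X → Prop)
    (ψ : X → A) : Prop :=
  ψ 1 = 1 ∧ ∀ f g, s f → s g → ψ (f + g) = ψ f + ψ g ∧ ψ (f * g) = ψ f * ψ g ∧
    (∀ c : ℂ, ψ (c • f) = c • ψ f) ∧ ψ (star f) = star (ψ f)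

/-- The contractions among the images under `ψ` of the elements satisfying `s` commute with `c`
up to `ε`. -/
def IsNearlyCentral {X A : Type*} [CStarAlgebra A] (s : X → Prop) (ψ : X → A) (c : A) (ε : ℝ) :
    Prop :=
  ∀ f, s f → ‖ψ f‖ ≤ 1 → ‖c * ψ f - ψ f * c‖ ≤ ε

/-- Arbitrarily large prime dimension drop algebras map unitally and approximately centrally
into `A`. -/
def HasCentralDropMaps (A : Type*) [CStarAlgebra A] : Prop :=
  ∀ (C : Finset A) (ε : ℝ), 0 < ε → ∀ N : ℕ, ∃ p q : ℕ, N ≤ p ∧ N ≤ q ∧ p.Coprime q ∧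
    ∃ ψ : (unitInterval → Matrix (Fin p × Fin q) (Fin p × Fin q) ℂ) → A,
      IsUnitalHomOn (IsDropElement p q) ψ ∧ ∀ c ∈ C, IsNearlyCentral (IsDropElement p q) ψ c ε

end Vale.Agent.P095
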