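import Mathlib

/-!
# P095: interpolating two commuting systems of matrix units

`L`, `R` are commuting systems of matrix units with units `Pₙ`, `Qₙ`.  On `Pₙ Qₙ` the first is
rotated to the second by the flip; off it the two are scaled by `a`, `b`.
-/

namespace Vale.Agent.P095.Drop

variable {n : ℕ} {M : Type*} [Ring M] [StarRing M] [Algebra ℂ M] [StarModule ℂ M]

/-- Two commuting systems of matrix units. -/
structure Units2 (n : ℕ) (M : Type*) [Ring M] [StarRing M] where
  L : Fin n → Fin n → M
  R : Fin n → Fin n → M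
  L_mul : ∀ i j k l, L i j * L k l = if j = k then L i l else 0
  R_mul : ∀ i j k l, R i j * R k l = if j = k then R i l else 0
  L_star : ∀ i j, star (L i j) = L j i
  R_star : ∀ i j, star (R i j) = R j i
  comm : ∀ i j k l, L i j * R k l = R k l * L i j

namespace Units2

variable (T : Units2 n M)

/-- The unit of the first system. -/
def P : M := ∑ i, T.L i i

/-- The unit of the second system. -/
def Q : M := ∑ i, T.R i i

/-- The flip. -/
def F : M := ∑ i, ∑ j, T.L i j * T.R j i

/-- The rotation from the first to the second system. -/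
noncomputable def U (z : ℂ) : M := ((1 + z) / 2) • (T.P * T.Q) + ((1 - z) / 2) • T.F

/-- The interpolated matrix units. -/
noncomputable def e (z : ℂ) (a b : ℝ) (i j : Fin n) : M :=
  T.U z * T.L i j * star (T.U z) + (a : ℂ) • (T.L i j * (1 - T.Q)) +
    (b : ℂ) • ((1 - T.P) * T.R i j)

theorem P_mul_L (i j : Fin n) : T.P * T.L i j = T.L i j := by
  simp [P, Finset.sum_mul, T.L_mul]

theorem L_mul_P (i j : Fin n) : T.L i j * T.P = T.L i j := by
  simp [P, Finset.mul_sum, T.L_mul]

theorem Q_mul_R (i j : Fin n) : T.Q * T.R i j = T.R i j := by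
  simp [Q, Finset.sum_mul, T.R_mul]

theorem R_mul_Q (i j : Fin n) : T.R i j * T.Q = T.R i j := by
  simp [Q, Finset.mul_sum, T.R_mul]

theorem L_Q (i j : Fin n) : T.L i j * T.Q = T.Q * T.L i j := by
  simp [Q, Finset.mul_sum, Finset.sum_mul, T.comm]

theorem R_P (i j : Fin n) : T.R i j * T.P = T.P * T.R i j := by
  simp [P, Finset.mul_sum, Finset.sum_mul, T.comm]

theorem P_Q : T.P * T.Q = T.Q * T.P := by
  simp [P, Finset.mul_sum, Finset.sum_mul, L_Q]

theorem P_idem : T.P * T.P = T.P := by
  nth_rw 2 [P]; rw [Finset.mul_sum]; simp only [P_mul_L]; rfl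

theorem Q_idem : T.Q * T.Q = T.Q := by
  nth_rw 2 [Q]; rw [Finset.mul_sum]; simp only [Q_mul_R]; rfl

theorem P_star : star T.P = T.P := by simp [P, star_sum, T.L_star]

theorem Q_star : star T.Q = T.Q := by simp [Q, star_sum, T.R_star]

theorem F_star : star T.F = T.F := by
  simp only [F, star_sum, star_mul, T.L_star, T.R_star, ← T.comm]
  rw [Finset.sum_comm]

theorem P_mul_F : T.P * T.F = T.F := by
  simp only [F, Finset.mul_sum, ← mul_assoc, P_mul_L]

theorem F_mul_P : T.F * T.P = T.F := by
  simp only [F, Finset.sum_mul, mul_assoc, R_P]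
  simp only [← mul_assoc, L_mul_P]

theorem Q_mul_F : T.Q * T.F = T.F := by
  simp only [F, Finset.mul_sum, ← mul_assoc, ← L_Q]
  simp only [mul_assoc, Q_mul_R]

theorem F_mul_Q : T.F * T.Q = T.F := by
  simp only [F, Finset.sum_mul, mul_assoc, R_mul_Q]

theorem F_L (i j : Fin n) : T.F * T.L i j = ∑ k, T.L k j * T.R i k := by
  simp only [F, Finset.sum_mul, mul_assoc, ← T.comm]
  simp only [← mul_assoc, T.L_mul]
  simp

theorem F_sq : T.F * T.F = T.P * T.Q := by
  have h : ∀ k b : Fin n, T.F * (T.L k b * T.R b k) = T.L b b * T.R k k := by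
    intro k b
    rw [← mul_assoc, F_L, Finset.sum_mul]
    simp [mul_assoc, T.R_mul]
  calc T.F * T.F = ∑ k, ∑ b, T.L b b * T.R k k := by
        nth_rw 2 [F]; simp only [Finset.mul_sum, h]
    _ = T.P * T.Q := by rw [P, Q, Finset.sum_mul_sum, Finset.sum_comm]

theorem F_L_F (i j : Fin n) : T.F * T.L i j * T.F = T.P * T.R i j := by
  rw [F_L, F, Finset.sum_mul]
  simp only [Finset.mul_sum]
  calc ∑ k, ∑ a, ∑ b, T.L k j * T.R i k * (T.L a b * T.R b a)
      = ∑ k, ∑ a, ∑ b, (T.L k j * T.L a b) * (T.R i k * T.R b a) := by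
        simp only [mul_assoc]
        simp only [← mul_assoc (T.R i _), ← T.comm, mul_assoc]
    _ = ∑ k, T.L k k * T.R i j := by simp [T.L_mul, T.R_mul]
    _ = T.P * T.R i j := by rw [P, Finset.sum_mul]

theorem star_U (z : ℂ) :
    star (T.U z) = star ((1 + z) / 2) • (T.P * T.Q) + star ((1 - z) / 2) • T.F := by
  rw [U, star_add, star_smul, star_smul, star_mul, P_star, Q_star, F_star, P_Q]

theorem PQ_mul_F : T.P * T.Q * T.F = T.F := by rw [mul_assoc, Q_mul_F, P_mul_F]

theorem F_mul_PQ : T.F * (T.P * T.Q) = T.F := by rw [← mul_assoc, F_mul_P, F_mul_Q]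

theorem PQ_idem : T.P * T.Q * (T.P * T.Q) = T.P * T.Q := by
  rw [mul_assoc, ← mul_assoc T.Q, ← P_Q, mul_assoc, Q_idem, ← mul_assoc, P_idem]

theorem star_U_mul (z : ℂ) (hz : ‖z‖ = 1) : star (T.U z) * T.U z = T.P * T.Q := by
  rw [star_U, U]
  simp only [add_mul, mul_add, smul_mul_smul_comm, PQ_idem, PQ_mul_F, F_mul_PQ, F_sq]
  have h : star z * z = 1 := by
    rw [Complex.star_def, mul_comm, Complex.mul_conj, Complex.normSq_eq_norm_sq, hz]; simp
  match_scalars <;> simp [Complex.star_def] at h ⊢ <;>
    first | linear_combination h / 2 | linear_combination -h / 2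

theorem U_mul_star (z : ℂ) (hz : ‖z‖ = 1) : T.U z * star (T.U z) = T.P * T.Q := by
  rw [star_U, U]
  simp only [add_mul, mul_add, smul_mul_smul_comm, PQ_idem, PQ_mul_F, F_mul_PQ, F_sq]
  have h : z * star z = 1 := by
    rw [Complex.star_def, Complex.mul_conj, Complex.normSq_eq_norm_sq, hz]; simp
  match_scalars <;> simp [Complex.star_def] at h ⊢ <;>
    first | linear_combination h / 2 | linear_combination -h / 2

theorem Q_mul_U (z : ℂ) : T.Q * T.U z = T.U z := by
  simp only [U, mul_add, mul_smul_comm, Q_mul_F]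
  rw [← mul_assoc, ← P_Q, mul_assoc, Q_idem]

theorem U_mul_Q (z : ℂ) : T.U z * T.Q = T.U z := by
  simp only [U, add_mul, smul_mul_assoc, F_mul_Q]
  rw [mul_assoc, Q_idem]

theorem P_mul_U (z : ℂ) : T.P * T.U z = T.U z := by
  simp only [U, mul_add, mul_smul_comm, P_mul_F]
  rw [← mul_assoc, P_idem]

theorem U_mul_P (z : ℂ) : T.U z * T.P = T.U z := by
  simp only [U, add_mul, smul_mul_assoc, F_mul_P]
  rw [mul_assoc, ← P_Q, ← mul_assoc, P_idem]

theorem sU_mul_Q (z : ℂ) : star (T.U z) * T.Q = star (T.U z) := by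
  have := congrArg star (T.Q_mul_U z); rwa [star_mul, Q_star] at this

theorem Q_mul_sU (z : ℂ) : T.Q * star (T.U z) = star (T.U z) := by
  have := congrArg star (T.U_mul_Q z); rwa [star_mul, Q_star] at this

theorem sU_mul_P (z : ℂ) : star (T.U z) * T.P = star (T.U z) := by
  have := congrArg star (T.P_mul_U z); rwa [star_mul, P_star] at this

/-- The middle part. -/
noncomputable def mid (z : ℂ) (i j : Fin n) : M := T.U z * T.L i j * star (T.U z)

/-- The part off the second unit. -/
def left (i j : Fin n) : M := T.L i j * (1 - T.Q)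

/-- The part off the first unit. -/
def right (i j : Fin n) : M := (1 - T.P) * T.R i j

theorem e_eq (z : ℂ) (a b : ℝ) (i j : Fin n) :
    T.e z a b i j = T.mid z i j + (a : ℂ) • T.left i j + (b : ℂ) • T.right i j := rfl

theorem star_mid (z : ℂ) (i j : Fin n) : star (T.mid z i j) = T.mid z j i := by
  simp [mid, star_mul, T.L_star, mul_assoc]

theorem star_left (i j : Fin n) : star (T.left i j) = T.left j i := by
  rw [left, left, star_mul, T.L_star, star_sub, star_one, Q_star, sub_mul, mul_sub, one_mul,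
    mul_one, L_Q]

theorem star_right (i j : Fin n) : star (T.right i j) = T.right j i := by
  rw [right, right, star_mul, T.R_star, star_sub, star_one, P_star, sub_mul, mul_sub, one_mul,
    mul_one, R_P]

theorem mid_mul (z : ℂ) (hz : ‖z‖ = 1) (i j k l : Fin n) :
    T.mid z i j * T.mid z k l = if j = k then T.mid z i l else 0 := by
  have h : star (T.U z) * (T.U z) = T.P * T.Q := T.star_U_mul z hz
  calc T.mid z i j * T.mid z k l
      = T.U z * (T.L i j * (star (T.U z) * T.U z) * T.L k l) * star (T.U z) := by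
        simp only [mid, mul_assoc]
    _ = T.U z * (T.L i j * T.L k l) * (T.Q * star (T.U z)) := by
        rw [h, ← mul_assoc (T.L i j), L_mul_P, mul_assoc (T.L i j), ← L_Q]
        simp only [mul_assoc]
    _ = _ := by
        rw [Q_mul_sU, T.L_mul]
        split_ifs <;> simp [mid]

theorem left_mul (i j k l : Fin n) :
    T.left i j * T.left k l = if j = k then T.left i l else 0 := by
  have h : (1 - T.Q) * (T.L k l * (1 - T.Q)) = T.L k l * (1 - T.Q) := by
    rw [← mul_assoc, sub_mul, one_mul, ← L_Q]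
    simp only [sub_mul, mul_sub, mul_one, mul_assoc, Q_idem]
    abel
  rw [left, left, mul_assoc, h, ← mul_assoc, T.L_mul]
  split_ifs <;> simp [left]

theorem right_mul (i j k l : Fin n) :
    T.right i j * T.right k l = if j = k then T.right i l else 0 := by
  have h : (1 - T.P) * T.R i j * (1 - T.P) = (1 - T.P) * T.R i j := by
    rw [mul_assoc, mul_sub, mul_one, R_P]
    simp only [mul_sub, sub_mul, one_mul, ← mul_assoc, P_idem]
    abel
  rw [right, right, ← mul_assoc, h, mul_assoc, T.R_mul]
  split_ifs <;> simp [right]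

theorem mid_left (z : ℂ) (i j k l : Fin n) : T.mid z i j * T.left k l = 0 := by
  have : star (T.U z) * (T.L k l * (1 - T.Q)) = 0 := by
    rw [← T.sU_mul_Q, mul_assoc, ← mul_assoc T.Q, ← L_Q, mul_assoc (T.L k l), mul_sub, mul_one,
      Q_idem, sub_self, mul_zero, mul_zero]
  rw [mid, left, mul_assoc, this, mul_zero]

theorem mid_right (z : ℂ) (i j k l : Fin n) : T.mid z i j * T.right k l = 0 := by
  have : star (T.U z) * (1 - T.P) = 0 := by rw [mul_sub, mul_one, sU_mul_P, sub_self]
  rw [mid, right, ← mul_assoc, mul_assoc _ (star _), this, mul_zero, zero_mul]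

theorem left_right (i j k l : Fin n) : T.left i j * T.right k l = 0 := by
  have : (1 - T.Q) * ((1 - T.P) * T.R k l) = (1 - T.P) * ((1 - T.Q) * T.R k l) := by
    rw [← mul_assoc, ← mul_assoc]
    congr 1
    simp only [mul_sub, sub_mul, one_mul, mul_one, P_Q]
    abel
  rw [left, right, mul_assoc, this, sub_mul, one_mul, sub_mul (1 : M) T.Q, one_mul, Q_mul_R,
    sub_self, mul_zero, sub_zero, mul_zero]

theorem left_mid (z : ℂ) (i j k l : Fin n) : T.left i j * T.mid z k l = 0 := by
  have := congrArg star (T.mid_left z l k j i)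
  rwa [star_mul, star_zero, star_mid, star_left] at this

theorem right_mid (z : ℂ) (i j k l : Fin n) : T.right i j * T.mid z k l = 0 := by
  have := congrArg star (T.mid_right z l k j i)
  rwa [star_mul, star_zero, star_mid, star_right] at this

theorem right_left (i j k l : Fin n) : T.right i j * T.left k l = 0 := by
  have := congrArg star (T.left_right l k j i)
  rwa [star_mul, star_zero, star_right, star_left] at this

theorem e_star (z : ℂ) (a b : ℝ) (i j : Fin n) : star (T.e z a b i j) = T.e z a b j i := by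
  simp [e_eq, star_add, star_smul, star_mid, star_left, star_right]

theorem e_mul (z : ℂ) (hz : ‖z‖ = 1) (a b : ℝ) (i j k l : Fin n) :
    T.e z a b i j * T.e z a b k l = if j = k then T.mid z i l + ((a * a : ℝ) : ℂ) • T.left i l +
      ((b * b : ℝ) : ℂ) • T.right i l else 0 := by
  simp only [e_eq, mul_add, add_mul, mul_smul_comm, smul_mul_assoc, mid_mul T z hz, left_mul,
    right_mul, mid_left, mid_right, left_right, left_mid, right_mid, right_left, smul_zero,
    add_zero, zero_add, smul_smul, ← Complex.ofReal_mul]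
  split_ifs <;> simp

theorem sum_mid (z : ℂ) (hz : ‖z‖ = 1) : ∑ i, T.mid z i i = T.P * T.Q := by
  simp only [mid]
  rw [← Finset.sum_mul, ← Finset.mul_sum, ← P, U_mul_P, U_mul_star T z hz]

theorem sum_left : ∑ i, T.left i i = T.P * (1 - T.Q) := by
  simp only [left]; rw [← Finset.sum_mul]; rfl

theorem sum_right : ∑ i, T.right i i = (1 - T.P) * T.Q := by
  simp only [right]; rw [← Finset.mul_sum]; rfl

theorem one_sub_sum (z : ℂ) (hz : ‖z‖ = 1) (a b : ℝ) (hab : a + b = 1) :
    1 - ∑ i, T.e z a b i i = (a : ℂ) • (1 - T.P) + (b : ℂ) • (1 - T.Q) := by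
  simp only [e_eq, Finset.sum_add_distrib, ← Finset.smul_sum, sum_mid T z hz, sum_left, sum_right]
  have hb : (b : ℂ) = 1 - a := by rw [eq_sub_iff_add_eq']; exact_mod_cast hab
  simp only [mul_sub, sub_mul, mul_one, one_mul, smul_sub, hb]
  module

theorem U_one : T.U 1 = T.P * T.Q := by simp [U]

theorem U_neg_one : T.U (-1) = T.F := by norm_num [U]

theorem e_zero (i j : Fin n) : T.e 1 1 0 i j = T.L i j := by
  simp only [e_eq, mid, U_one, star_mul, P_star, Q_star, left, Complex.ofReal_one,
    Complex.ofReal_zero, one_smul, zero_smul, add_zero]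
  rw [show T.P * T.Q * T.L i j * (T.Q * T.P) = T.L i j * T.Q from ?_]
  · rw [← mul_add, add_sub_cancel, mul_one]
  rw [mul_assoc T.P, ← L_Q, ← mul_assoc T.P, P_mul_L, mul_assoc (T.L i j), ← mul_assoc T.Q,
    Q_idem, ← P_Q, ← mul_assoc, L_mul_P]

theorem e_one (i j : Fin n) : T.e (-1) 0 1 i j = T.R i j := by
  simp only [e_eq, mid, U_neg_one, F_star, F_L_F, right, Complex.ofReal_one, Complex.ofReal_zero,
    one_smul, zero_smul, add_zero]
  rw [← add_mul, add_sub_cancel, one_mul]

end Units2

end Vale.Agent.P095.Drop
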