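import Vale.Agent.P095.Drop.Defs
import Vale.Agent.P095.Drop.Flip

/-!
# P095: the interpolated matrix units inside a dimension drop algebra
-/

open scoped Kronecker
open Complex

namespace Vale.Agent.P095.Drop

variable {n p q : ℕ}

/-- The place of `(i, u)` among `Fin p`. -/
def place {n a p : ℕ} (h : n * a ≤ p) (x : Fin n × Fin a) : Fin p :=
  Fin.castLE h (finProdFinEquiv x)

theorem place_injective {n a p : ℕ} (h : n * a ≤ p) : Function.Injective (place (n := n) h) :=
  fun _ _ hxy => finProdFinEquiv.injective (Fin.castLE_injective h hxy)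

/-- The block diagonal matrix units of size `n` in `M_p`. -/
def blockUnit {n a p : ℕ} (h : n * a ≤ p) (i j : Fin n) : Matrix (Fin p) (Fin p) ℂ :=
  ∑ u : Fin a, Matrix.single (place h (i, u)) (place h (j, u)) 1

theorem blockUnit_mul {n a p : ℕ} (h : n * a ≤ p) (i j k l : Fin n) :
    blockUnit h i j * blockUnit h k l = if j = k then blockUnit h i l else 0 := by
  simp only [blockUnit, Finset.sum_mul, Finset.mul_sum]
  split_ifs with hjk
  · subst hjk
    refine Finset.sum_congr rfl fun u _ => ?_
    rw [Finset.sum_eq_single u]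
    · simp
    · intro v _ hv
      rw [Matrix.single_mul_single_of_ne]
      exact fun e => hv (by simpa [eq_comm] using (Prod.ext_iff.1 (place_injective h e)).2)
    · simp
  · refine Finset.sum_eq_zero fun u _ => Finset.sum_eq_zero fun v _ => ?_
    rw [Matrix.single_mul_single_of_ne]
    exact fun e => hjk (Prod.ext_iff.1 (place_injective h e)).1

theorem blockUnit_star {n a p : ℕ} (h : n * a ≤ p) (i j : Fin n) :
    star (blockUnit h i j) = blockUnit h j i := by
  simp [blockUnit, star_sum, Matrix.star_eq_conjTranspose]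

/-- The two commuting systems in `M_p ⊗ M_q`. -/
def units (hp : n * (p / n) ≤ p) (hq : n * (q / n) ≤ q) :
    Units2 n (Matrix (Fin p × Fin q) (Fin p × Fin q) ℂ) where
  L i j := blockUnit hp i j ⊗ₖ 1
  R i j := 1 ⊗ₖ blockUnit hq i j
  L_mul i j k l := by
    rw [← Matrix.mul_kronecker_mul, blockUnit_mul]
    split_ifs <;> simp
  R_mul i j k l := by
    rw [← Matrix.mul_kronecker_mul, blockUnit_mul]
    split_ifs <;> simp
  L_star i j := by
    rw [Matrix.star_eq_conjTranspose, Matrix.conjTranspose_kronecker, ← Matrix.star_eq_conjTranspose,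
      blockUnit_star]
    simp
  R_star i j := by
    rw [Matrix.star_eq_conjTranspose, Matrix.conjTranspose_kronecker,
      ← Matrix.star_eq_conjTranspose (blockUnit hq i j), blockUnit_star]
    simp
  comm i j k l := by simp [← Matrix.mul_kronecker_mul]

/-- The parts of `Fin p` outside the blocks. -/
def spare {n a p : ℕ} (h : n * a ≤ p) : Finset (Fin p) :=
  Finset.univ \ Finset.univ.image (place (n := n) h)

theorem card_spare {n a p : ℕ} (h : n * a ≤ p) : (spare (n := n) h).card = p - n * a := by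
  rw [spare, Finset.card_sdiff_of_subset (Finset.subset_univ _),
    Finset.card_image_of_injective _ (place_injective h)]
  simp

theorem one_sub_sum_blockUnit {n a p : ℕ} (h : n * a ≤ p) :
    (1 : Matrix (Fin p) (Fin p) ℂ) - ∑ i : Fin n, blockUnit h i i =
      ∑ k ∈ spare (n := n) h, Matrix.single k k 1 := by
  have h1 : (1 : Matrix (Fin p) (Fin p) ℂ) = ∑ k, Matrix.single k k 1 := by
    ext x y
    simp [Matrix.sum_apply, Matrix.single, Matrix.one_apply, ite_and]
  have h2 : ∑ i : Fin n, blockUnit h i i =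
      ∑ k ∈ Finset.univ.image (place (n := n) h), Matrix.single k k 1 := by
    rw [Finset.sum_image fun x _ y _ e => place_injective h e, Fintype.sum_prod_type]
    rfl
  rw [h1, h2, spare, Finset.sum_sdiff_eq_sub (Finset.subset_univ _)]

/-- The point of the circle over `t`. -/
noncomputable def rot (t : unitInterval) : ℂ := Complex.exp (I * Real.pi * (t : ℝ))

theorem norm_rot (t : unitInterval) : ‖rot t‖ = 1 := by
  rw [rot, Complex.norm_exp]; simp

theorem rot_zero : rot 0 = 1 := by simp [rot]

theorem rot_one : rot 1 = -1 := by simp [rot, mul_comm I, Complex.exp_pi_mul_I]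

variable (hp : n * (p / n) ≤ p) (hq : n * (q / n) ≤ q)

/-- The interpolation with coefficients `f`, `g`. -/
noncomputable def interp (f g : unitInterval → ℝ) (i j : Fin n) :
    unitInterval → Matrix (Fin p × Fin q) (Fin p × Fin q) ℂ :=
  fun t => (units hp hq).e (rot t) (f t) (g t) i j

theorem interp_mem {f g : unitInterval → ℝ} (hf : Continuous f) (hg : Continuous g)
    (hf0 : f 0 = 1) (hg0 : g 0 = 0) (hf1 : f 1 = 0) (hg1 : g 1 = 1) (i j : Fin n) :
    interp hp hq f g i j ∈ dropAlgebra p q := by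
  refine ⟨?_, ⟨blockUnit hp i j, ?_⟩, blockUnit hq i j, ?_⟩
  · unfold interp Units2.e Units2.U rot; fun_prop
  · simp only [interp, rot_zero, hf0, hg0, Units2.e_zero]; rfl
  · simp only [interp, rot_one, hf1, hg1, Units2.e_one]; rfl

theorem scalar_mem {g : unitInterval → ℝ} (hg : Continuous g) (h0 : g 0 = 0) (h1 : g 1 = 0)
    (X : Matrix (Fin p × Fin q) (Fin p × Fin q) ℂ) :
    (fun t => (g t : ℂ) • X) ∈ dropAlgebra p q :=
  ⟨by fun_prop, ⟨0, by simp [h0]⟩, 0, by simp [h1]⟩

theorem scalar_left_mem {g : unitInterval → ℝ} (hg : Continuous g) (h1 : g 1 = 0)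
    (x : Matrix (Fin p) (Fin p) ℂ) :
    (fun t => (g t : ℂ) • (x ⊗ₖ (1 : Matrix (Fin q) (Fin q) ℂ))) ∈ dropAlgebra p q :=
  ⟨by fun_prop, ⟨(g 0 : ℂ) • x, by simp [Matrix.smul_kronecker]⟩, 0, by simp [h1]⟩

theorem scalar_right_mem {g : unitInterval → ℝ} (hg : Continuous g) (h0 : g 0 = 0)
    (y : Matrix (Fin q) (Fin q) ℂ) :
    (fun t => (g t : ℂ) • ((1 : Matrix (Fin p) (Fin p) ℂ) ⊗ₖ y)) ∈ dropAlgebra p q :=
  ⟨by fun_prop, ⟨0, by simp [h0]⟩, (g 1 : ℂ) • y, by simp [Matrix.kronecker_smul]⟩

end Vale.Agent.P095.Drop
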