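import Vale.Agent.P095.Drop.Elements
import Vale.Agent.P095.Model

/-!
# P095: central maps from dimension drop algebras give uniform McDuffness
-/

open scoped Kronecker ComplexOrder
open Complex

namespace Vale.Agent.P095.Drop

variable {A : Type*} [CStarAlgebra A] {n p q : ℕ}

/-- The trace of `A` pulled back. -/
noncomputable def pull (ψ : dropAlgebra p q →⋆ₐ[ℂ] A) (τ : A →ₗ[ℂ] ℂ)
    (x : dropAlgebra p q) : ℝ := (τ (ψ x)).re

variable {ψ : dropAlgebra p q →⋆ₐ[ℂ] A} {τ : A →ₗ[ℂ] ℂ}

theorem pull_nonneg (hτ : IsTracial τ) (x : dropAlgebra p q) : 0 ≤ pull ψ τ (star x * x) := by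
  rw [pull, map_mul ψ, map_star]; exact (RCLike.nonneg_iff.1 (hτ.2.1 _)).1

theorem pull_comm (hτ : IsTracial τ) (x y : dropAlgebra p q) :
    pull ψ τ (x * y) = pull ψ τ (y * x) := by rw [pull, pull, map_mul ψ, map_mul ψ, hτ.2.2]

theorem pull_add (x y : dropAlgebra p q) : pull ψ τ (x + y) = pull ψ τ x + pull ψ τ y := by
  simp [pull]

theorem pull_one (hτ : IsTracial τ) : pull ψ τ 1 = 1 := by simp [pull, hτ.1]

theorem pull_sum {ι : Type*} (s : Finset ι) (x : ι → dropAlgebra p q) :
    pull ψ τ (∑ i ∈ s, x i) = ∑ i ∈ s, pull ψ τ (x i) := by simp [pull, map_sum]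

theorem mul_pointwise (x y : dropAlgebra p q) (t : unitInterval) :
    (x * y).1 t = (x).1 t * (y).1 t :=
  rfl

theorem ext_pointwise {x y : dropAlgebra p q}
    (h : ∀ t, (x).1 t = (y).1 t) : x = y := Subtype.ext (funext h)

theorem single_mul_single' {ι : Type*} [Fintype ι] [DecidableEq ι] (i j k : ι) :
    Matrix.single i j (1 : ℂ) * Matrix.single j k 1 = Matrix.single i k 1 := by simp

/-- The weights `(1 - t)` on the spare diagonal of `M_p` have small trace. -/
theorem pull_spare_left (hτ : IsTracial τ) (hp0 : 0 < p) (s : Finset (Fin p))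
    (H : dropAlgebra p q) (hH : ∀ t : unitInterval, (H).1 t =
      ((1 - (t : ℝ) : ℝ) : ℂ) • ((∑ k ∈ s, Matrix.single k k (1 : ℂ)) ⊗ₖ 1)) :
    pull ψ τ H ≤ s.card / p := by
  have cg : Continuous fun t : unitInterval => Real.sqrt (1 - (t : ℝ)) := by fun_prop
  let v : Fin p → Fin p → dropAlgebra p q := fun k l =>
    ⟨_, scalar_left_mem (g := fun t => Real.sqrt (1 - (t : ℝ))) cg (by simp)
      (Matrix.single k l 1)⟩
  have hv : ∀ k l m, ∀ t : unitInterval, (star (v k l) * v k m).1 t = ((1 - (t : ℝ) : ℝ) : ℂ) • (Matrix.single l m (1 : ℂ) ⊗ₖ 1) := by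
    intro k l m t
    have h1 : Real.sqrt (1 - (t : ℝ)) * Real.sqrt (1 - (t : ℝ)) = 1 - (t : ℝ) :=
      Real.mul_self_sqrt (sub_nonneg.2 t.2.2)
    rw [mul_pointwise]
    show star ((Real.sqrt (1 - (t : ℝ)) : ℂ) • (Matrix.single k l (1 : ℂ) ⊗ₖ (1 : Matrix (Fin q) (Fin q) ℂ))) *
      ((Real.sqrt (1 - (t : ℝ)) : ℂ) • (Matrix.single k m (1 : ℂ) ⊗ₖ 1)) = _
    rw [star_smul, smul_mul_smul_comm, Matrix.star_eq_conjTranspose, Matrix.conjTranspose_kronecker,
      ← Matrix.mul_kronecker_mul]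
    simp [← Complex.ofReal_mul, h1]
  set T : Fin p → ℝ := fun k => pull ψ τ (star (v k k) * v k k) with hT
  have hTeq : ∀ k l, T k = T l := by
    intro k l
    have e1 : star (v k k) * v k k = star (v l k) * v l k :=
      ext_pointwise fun t => by rw [hv, hv]
    have e2 : star (v k l) = v l k := by
      refine ext_pointwise fun t => ?_
      show star ((Real.sqrt (1 - (t : ℝ)) : ℂ) • (Matrix.single k l (1 : ℂ) ⊗ₖ (1 : Matrix (Fin q) (Fin q) ℂ))) = _
      rw [star_smul, Matrix.star_eq_conjTranspose, Matrix.conjTranspose_kronecker]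
      simp [v]
    have e4 : star (v l k) = v k l := by rw [← e2, star_star]
    have e3 : star (v k l) * v k l = star (v l l) * v l l :=
      ext_pointwise fun t => by rw [hv, hv]
    calc T k = pull ψ τ (star (v l k) * v l k) := by rw [hT]; simp only [e1]
      _ = pull ψ τ (star (v k l) * v k l) := by rw [pull_comm hτ, e4, e2]
      _ = T l := by rw [hT]; simp only [e3]
  have hall : ∑ k, T k ≤ 1 := by
    let b : dropAlgebra p q :=
      ⟨_, scalar_right_mem (g := fun t => Real.sqrt (t : ℝ)) (by fun_prop) (by simp) 1⟩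
    have e : (∑ k, star (v k k) * v k k) + star b * b = 1 := by
      refine ext_pointwise fun t => ?_
      simp only [AddMemClass.coe_add, AddSubmonoidClass.coe_finsetSum, Finset.sum_apply,
        Pi.add_apply, hv, mul_pointwise, ← Finset.smul_sum]
      have e1 : ∑ k : Fin p, Matrix.single k k (1 : ℂ) ⊗ₖ (1 : Matrix (Fin q) (Fin q) ℂ) = 1 := by
        ext x y
        simp [Matrix.sum_apply, Matrix.single, Matrix.one_apply, ite_and, Prod.ext_iff]
        try (split_ifs <;> simp_all)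
      show _ + star ((Real.sqrt (t : ℝ) : ℂ) • ((1 : Matrix (Fin p) (Fin p) ℂ) ⊗ₖ (1 : Matrix (Fin q) (Fin q) ℂ))) *
        ((Real.sqrt (t : ℝ) : ℂ) • ((1 : Matrix (Fin p) (Fin p) ℂ) ⊗ₖ 1)) = 1
      rw [e1, Matrix.one_kronecker_one, star_smul, star_one, smul_mul_smul_comm, mul_one,
        Complex.star_def, Complex.conj_ofReal, ← Complex.ofReal_mul, Real.mul_self_sqrt t.2.1,
        ← add_smul, ← Complex.ofReal_add, sub_add_cancel, Complex.ofReal_one, one_smul]
    have h1 := pull_one (ψ := ψ) hτ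
    rw [← e, pull_add, pull_sum] at h1
    linarith [pull_nonneg (ψ := ψ) hτ b]
  have hH' : H = ∑ k ∈ s, star (v k k) * v k k := by
    refine ext_pointwise fun t => ?_
    simp only [AddSubmonoidClass.coe_finsetSum, Finset.sum_apply, hv, ← Finset.smul_sum, hH]
    congr 1
    ext x y
    simp [Matrix.sum_apply, Finset.sum_mul]
  rw [hH', pull_sum]
  have hk : ∀ k, T k ≤ 1 / (p : ℝ) := fun k => by
    rw [le_div_iff₀ (Nat.cast_pos.2 hp0)]
    calc T k * p = ∑ _l : Fin p, T k := by simp [mul_comm]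
      _ = ∑ l, T l := Finset.sum_congr rfl fun l _ => hTeq k l
      _ ≤ 1 := hall
  calc ∑ k ∈ s, pull ψ τ (star (v k k) * v k k) ≤ ∑ _k ∈ s, 1 / (p : ℝ) :=
        Finset.sum_le_sum fun k _ => hk k
    _ = _ := by rw [Finset.sum_const, nsmul_eq_mul, mul_one_div]

/-- The weights `t` on the spare diagonal of `M_q` have small trace. -/
theorem pull_spare_right (hτ : IsTracial τ) (hq0 : 0 < q) (s : Finset (Fin q))
    (H : dropAlgebra p q) (hH : ∀ t : unitInterval, (H).1 t =
      ((t : ℝ) : ℂ) • ((1 : Matrix (Fin p) (Fin p) ℂ) ⊗ₖ ∑ k ∈ s, Matrix.single k k (1 : ℂ))) :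
    pull ψ τ H ≤ s.card / q := by
  have cg : Continuous fun t : unitInterval => Real.sqrt (t : ℝ) := by fun_prop
  let v : Fin q → Fin q → dropAlgebra p q := fun k l =>
    ⟨_, scalar_right_mem (g := fun t => Real.sqrt (t : ℝ)) cg (by simp) (Matrix.single k l 1)⟩
  have hv : ∀ k l m, ∀ t : unitInterval, (star (v k l) * v k m).1 t =
        ((t : ℝ) : ℂ) • ((1 : Matrix (Fin p) (Fin p) ℂ) ⊗ₖ Matrix.single l m (1 : ℂ)) := by
    intro k l m t
    have h1 : Real.sqrt (t : ℝ) * Real.sqrt (t : ℝ) = (t : ℝ) := Real.mul_self_sqrt t.2.1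
    rw [mul_pointwise]
    show star ((Real.sqrt (t : ℝ) : ℂ) • ((1 : Matrix (Fin p) (Fin p) ℂ) ⊗ₖ Matrix.single k l (1 : ℂ))) *
      ((Real.sqrt (t : ℝ) : ℂ) • ((1 : Matrix (Fin p) (Fin p) ℂ) ⊗ₖ Matrix.single k m (1 : ℂ))) = _
    rw [star_smul, smul_mul_smul_comm, Matrix.star_eq_conjTranspose, Matrix.conjTranspose_kronecker,
      ← Matrix.mul_kronecker_mul]
    simp [← Complex.ofReal_mul, h1]
  set T : Fin q → ℝ := fun k => pull ψ τ (star (v k k) * v k k) with hT
  have hTeq : ∀ k l, T k = T l := by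
    intro k l
    have e1 : star (v k k) * v k k = star (v l k) * v l k :=
      ext_pointwise fun t => by rw [hv, hv]
    have e2 : star (v k l) = v l k := by
      refine ext_pointwise fun t => ?_
      show star ((Real.sqrt (t : ℝ) : ℂ) • ((1 : Matrix (Fin p) (Fin p) ℂ) ⊗ₖ Matrix.single k l (1 : ℂ))) = _
      rw [star_smul, Matrix.star_eq_conjTranspose, Matrix.conjTranspose_kronecker]
      simp [v]
    have e4 : star (v l k) = v k l := by rw [← e2, star_star]
    have e3 : star (v k l) * v k l = star (v l l) * v l l :=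
      ext_pointwise fun t => by rw [hv, hv]
    calc T k = pull ψ τ (star (v l k) * v l k) := by rw [hT]; simp only [e1]
      _ = pull ψ τ (star (v k l) * v k l) := by rw [pull_comm hτ, e4, e2]
      _ = T l := by rw [hT]; simp only [e3]
  have hall : ∑ k, T k ≤ 1 := by
    let b : dropAlgebra p q :=
      ⟨_, scalar_left_mem (g := fun t => Real.sqrt (1 - (t : ℝ))) (by fun_prop) (by simp) 1⟩
    have e : (∑ k, star (v k k) * v k k) + star b * b = 1 := by
      refine ext_pointwise fun t => ?_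
      simp only [AddMemClass.coe_add, AddSubmonoidClass.coe_finsetSum, Finset.sum_apply,
        Pi.add_apply, hv, mul_pointwise, ← Finset.smul_sum]
      have e1 : ∑ k, (1 : Matrix (Fin p) (Fin p) ℂ) ⊗ₖ Matrix.single k k (1 : ℂ) =
          (1 : Matrix (Fin p × Fin q) (Fin p × Fin q) ℂ) := by
        ext x y
        simp [Matrix.sum_apply, Matrix.single, Matrix.one_apply, ite_and, Prod.ext_iff]
        try (split_ifs <;> simp_all)
      show _ + star ((Real.sqrt (1 - (t : ℝ)) : ℂ) • ((1 : Matrix (Fin p) (Fin p) ℂ) ⊗ₖ (1 : Matrix (Fin q) (Fin q) ℂ))) *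
        ((Real.sqrt (1 - (t : ℝ)) : ℂ) • ((1 : Matrix (Fin p) (Fin p) ℂ) ⊗ₖ 1)) = 1
      rw [e1, Matrix.one_kronecker_one, star_smul, star_one, smul_mul_smul_comm, mul_one,
        Complex.star_def, Complex.conj_ofReal, ← Complex.ofReal_mul,
        Real.mul_self_sqrt (sub_nonneg.2 t.2.2), ← add_smul, ← Complex.ofReal_add, add_sub_cancel,
        Complex.ofReal_one, one_smul]
    have h1 := pull_one (ψ := ψ) hτ
    rw [← e, pull_add, pull_sum] at h1
    linarith [pull_nonneg (ψ := ψ) hτ b]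
  have hH' : H = ∑ k ∈ s, star (v k k) * v k k := by
    refine ext_pointwise fun t => ?_
    simp only [AddSubmonoidClass.coe_finsetSum, Finset.sum_apply, hv, ← Finset.smul_sum, hH]
    congr 1
    ext x y
    simp [Matrix.sum_apply, Finset.mul_sum]
  rw [hH', pull_sum]
  have hk : ∀ k, T k ≤ 1 / (q : ℝ) := fun k => by
    rw [le_div_iff₀ (Nat.cast_pos.2 hq0)]
    calc T k * q = ∑ _l : Fin q, T k := by simp [mul_comm]
      _ = ∑ l, T l := Finset.sum_congr rfl fun l _ => hTeq k l
      _ ≤ 1 := hall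
  calc ∑ k ∈ s, pull ψ τ (star (v k k) * v k k) ≤ ∑ _k ∈ s, 1 / (q : ℝ) :=
        Finset.sum_le_sum fun k _ => hk k
    _ = _ := by rw [Finset.sum_const, nsmul_eq_mul, mul_one_div]

theorem norm_le_one_of {X E : A} (h : star E * E + star X * X = 1) : ‖E‖ ≤ 1 := by
  let _ : PartialOrder A := CStarAlgebra.spectralOrder A
  let _ : StarOrderedRing A := CStarAlgebra.spectralOrderedRing A
  have h1 : star E * E ≤ 1 := h ▸ le_add_of_nonneg_right (star_mul_self_nonneg X)
  have h2 := (CStarAlgebra.norm_le_one_iff_of_nonneg _ (star_mul_self_nonneg E)).2 h1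
  rw [CStarRing.norm_star_mul_self] at h2
  nlinarith [norm_nonneg E]

/-- Central maps from large dimension drop algebras give uniform McDuffness. -/
theorem isUniformlyMcDuff (hA : HasCentralDropMaps A) : IsUniformlyMcDuff A := by
  intro C n hn ε hε
  obtain ⟨M, hM⟩ := exists_nat_gt (max (4 * n / ε) n)
  obtain ⟨p, q, hMp, hMq, -, ψ₀, hhom, hψ⟩ :=
    hA C (min (ε / 2) 1) (lt_min (by positivity) one_pos) M
  obtain ⟨h1ψ, hops⟩ := hhom
  have hψ0 : ψ₀ 0 = 0 := by
    have h := (hops 1 1 (dropAlgebra p q).one_mem (dropAlgebra p q).one_mem).2.2.1 0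
    simpa using h
  let ψ : dropAlgebra p q →⋆ₐ[ℂ] A :=
    { toFun := fun f => ψ₀ f.1
      map_one' := h1ψ
      map_mul' := fun f g => (hops f.1 g.1 f.2 g.2).2.1
      map_zero' := hψ0
      map_add' := fun f g => (hops f.1 g.1 f.2 g.2).1
      commutes' := fun c => by
        show ψ₀ (algebraMap ℂ (unitInterval → Matrix (Fin p × Fin q) (Fin p × Fin q) ℂ) c) = _
        rw [Algebra.algebraMap_eq_smul_one, Algebra.algebraMap_eq_smul_one,
          (hops 1 1 (dropAlgebra p q).one_mem (dropAlgebra p q).one_mem).2.2.1 c, h1ψ]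
      map_star' := fun f => (hops f.1 f.1 f.2 f.2).2.2.2 }
  have hnp : (4 * n / ε : ℝ) < p :=
    ((le_max_left _ _).trans_lt hM).trans_le (by exact_mod_cast hMp)
  have hnq : (4 * n / ε : ℝ) < q :=
    ((le_max_left _ _).trans_lt hM).trans_le (by exact_mod_cast hMq)
  have hp0 : 0 < p := Nat.cast_pos.1 (lt_trans (by positivity) hnp)
  have hq0 : 0 < q := Nat.cast_pos.1 (lt_trans (by positivity) hnq)
  have hp : n * (p / n) ≤ p := Nat.mul_div_le p n
  have hq : n * (q / n) ≤ q := Nat.mul_div_le q n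
  set T := units hp hq with hT
  have ca : Continuous fun t : unitInterval => 1 - (t : ℝ) := by fun_prop
  have cb : Continuous fun t : unitInterval => (t : ℝ) := by fun_prop
  have hmem := fun i j => interp_mem hp hq ca cb (by simp) (by simp) (by simp) (by simp) i j
  let E : Fin n → Fin n → dropAlgebra p q := fun i j => ⟨_, hmem i j⟩
  have hE : ∀ i j t, (E i j).1 t = T.e (rot t) (1 - (t : ℝ)) (t : ℝ) i j :=
    fun _ _ _ => rfl
  -- the defect
  set W : dropAlgebra p q := 1 - ∑ i, E i i with hWdef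
  have hW : ∀ t : unitInterval, (W).1 t =
      ((1 - (t : ℝ) : ℝ) : ℂ) • (1 - T.P) + ((t : ℝ) : ℂ) • (1 - T.Q) := by
    intro t
    simp only [hWdef, AddSubgroupClass.coe_sub, OneMemClass.coe_one, Pi.sub_apply, Pi.one_apply,
      AddSubmonoidClass.coe_finsetSum, Finset.sum_apply, hE]
    exact T.one_sub_sum _ (norm_rot t) _ _ (by ring)
  have hP : (1 : Matrix (Fin p × Fin q) (Fin p × Fin q) ℂ) - T.P =
      (∑ k ∈ spare (n := n) hp, Matrix.single k k (1 : ℂ)) ⊗ₖ 1 := by
    rw [← one_sub_sum_blockUnit]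
    ext x y
    simp [T, Units2.P, units, Matrix.sum_apply, Matrix.one_apply, Prod.ext_iff, sub_mul,
      Finset.sum_mul, ite_and]
    split_ifs <;> simp
  have hQ : (1 : Matrix (Fin p × Fin q) (Fin p × Fin q) ℂ) - T.Q =
      (1 : Matrix (Fin p) (Fin p) ℂ) ⊗ₖ ∑ k ∈ spare (n := n) hq, Matrix.single k k (1 : ℂ) := by
    rw [← one_sub_sum_blockUnit]
    ext x y
    simp [T, Units2.Q, units, Matrix.sum_apply, Matrix.one_apply, Prod.ext_iff, mul_sub,
      Finset.mul_sum, ite_and]
    split_ifs <;> simp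
  have hWτ : ∀ τ : A →ₗ[ℂ] ℂ, IsTracial τ → pull ψ τ W ≤ ε / 2 := by
    intro τ hτ
    let H1 : dropAlgebra p q := ⟨_, scalar_left_mem (q := q) ca (by simp)
      (∑ k ∈ spare (n := n) hp, Matrix.single k k (1 : ℂ))⟩
    let H2 : dropAlgebra p q := ⟨_, scalar_right_mem (p := p) cb (by simp)
      (∑ k ∈ spare (n := n) hq, Matrix.single k k (1 : ℂ))⟩
    have e : W = H1 + H2 := ext_pointwise fun t => by rw [hW, hP, hQ]; rfl
    rw [e, pull_add]
    refine le_trans (add_le_add (pull_spare_left hτ hp0 _ H1 fun t => rfl)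
      (pull_spare_right hτ hq0 _ H2 fun t => rfl)) ?_
    have b : ∀ m : ℕ, 0 < m → (4 * n / ε : ℝ) < m →
        ((m - n * (m / n) : ℕ) : ℝ) / m ≤ ε / 4 := by
      intro m hm0 hnm
      have h1 : m - n * (m / n) ≤ n := by
        have := Nat.div_add_mod m n
        have := Nat.mod_lt m hn
        omega
      rw [div_le_iff₀ (Nat.cast_pos.2 hm0)]
      rw [div_lt_iff₀ hε] at hnm
      have : ((m - n * (m / n) : ℕ) : ℝ) ≤ n := by exact_mod_cast h1
      nlinarith
    rw [card_spare, card_spare]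
    linarith [b p hp0 hnp, b q hq0 hnq]
  -- `W² ≤ W` in every trace
  have cs : ∀ f : unitInterval → ℝ, Continuous f → Continuous fun t => Real.sqrt (f t) :=
    fun f hf => hf.sqrt
  let X : dropAlgebra p q := ⟨_, scalar_mem (g := fun t => Real.sqrt ((1 - (t : ℝ)) * (t : ℝ)))
    (by fun_prop) (by simp) (by simp) ((1 - T.P) * T.Q + T.P * (1 - T.Q))⟩
  let K : dropAlgebra p q := ⟨_, scalar_mem
    (g := fun t => (1 - (t : ℝ)) * (t : ℝ) * (1 - (1 - (t : ℝ)) * (t : ℝ)))
    (by fun_prop) (by simp) (by simp) ((1 - T.P) * T.Q + T.P * (1 - T.Q))⟩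
  have idem : ((1 - T.P) * T.Q + T.P * (1 - T.Q)) * ((1 - T.P) * T.Q + T.P * (1 - T.Q)) =
      (1 - T.P) * T.Q + T.P * (1 - T.Q) := by
    have hc : Commute T.P T.Q := T.P_Q
    simp only [mul_sub, sub_mul, mul_add, add_mul, one_mul, mul_one, ← mul_assoc, T.P_idem, T.Q_idem,
      T.P_Q.symm]
    simp only [mul_assoc, T.P_idem, T.Q_idem, T.P_Q.symm]
    simp only [← mul_assoc, T.P_idem, T.Q_idem, T.P_Q.symm]
    abel
  have hJs : star ((1 - T.P) * T.Q + T.P * (1 - T.Q)) = (1 - T.P) * T.Q + T.P * (1 - T.Q) := by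
    simp only [star_add, star_mul, star_sub, star_one, T.P_star, T.Q_star, mul_sub, sub_mul,
      mul_one, one_mul, T.P_Q]
  have hsq : ∀ τ : A →ₗ[ℂ] ℂ, IsTracial τ → pull ψ τ (W * W) ≤ pull ψ τ W := by
    intro τ hτ
    have e : W = W * W + star X * X := by
      refine ext_pointwise fun t => ?_
      simp only [AddMemClass.coe_add, Pi.add_apply, mul_pointwise, hW]
      show _ = _ + star ((Real.sqrt ((1 - (t : ℝ)) * (t : ℝ)) : ℂ) •
        ((1 - T.P) * T.Q + T.P * (1 - T.Q))) * ((Real.sqrt ((1 - (t : ℝ)) * (t : ℝ)) : ℂ) •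
        ((1 - T.P) * T.Q + T.P * (1 - T.Q)))
      rw [star_smul, hJs, smul_mul_smul_comm, idem, Complex.star_def, Complex.conj_ofReal,
        ← Complex.ofReal_mul, Real.mul_self_sqrt (mul_nonneg (sub_nonneg.2 t.2.2) t.2.1)]
      simp only [mul_add, add_mul, smul_mul_smul_comm, mul_sub, sub_mul, mul_one, one_mul,
        T.P_idem, T.Q_idem, T.P_Q]
      push_cast
      module
    have h := congrArg (pull ψ τ) e
    rw [pull_add] at h
    linarith [pull_nonneg (ψ := ψ) hτ X]
  -- the off-diagonal defects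
  let Y : Fin n → dropAlgebra p q := fun l => ⟨_, scalar_mem
    (g := fun t => (1 - (t : ℝ)) * (t : ℝ)) (by fun_prop) (by simp) (by simp)
    (T.left l l + T.right l l)⟩
  have hD : ∀ i j k l : Fin n, ∀ τ : A →ₗ[ℂ] ℂ, IsTracial τ →
      pull ψ τ (star (E i j * E k l - if j = k then E i l else 0) *
        (E i j * E k l - if j = k then E i l else 0)) ≤ ε / 2 := by
    intro i j k l τ hτ
    have hW0 : pull ψ τ (W * W) ≤ ε / 2 := (hsq τ hτ).trans (hWτ τ hτ)
    have hW1 : 0 ≤ pull ψ τ (W * W) := by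
      have : star W = W := by
        refine ext_pointwise fun t => ?_
        show star ((W).1 t) = _
        rw [hW]
        simp [star_smul, star_sub, T.P_star, T.Q_star]
      have := pull_nonneg (ψ := ψ) hτ W
      rwa [‹star W = W›] at this
    by_cases hjk : j = k
    swap
    · rw [if_neg hjk]
      have e : E i j * E k l = 0 := ext_pointwise fun t => by
        rw [mul_pointwise, hE, hE, T.e_mul _ (norm_rot t), if_neg hjk]; rfl
      simp [e, pull]; positivity
    rw [if_pos hjk]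
    have e : star (E i j * E k l - E i l) * (E i j * E k l - E i l) = star (Y l) * Y l := by
      refine ext_pointwise fun t => ?_
      simp only [mul_pointwise]
      show star (T.e (rot t) _ _ i j * T.e (rot t) _ _ k l - T.e (rot t) _ _ i l) *
        (T.e (rot t) _ _ i j * T.e (rot t) _ _ k l - T.e (rot t) _ _ i l) =
        star ((((1 - (t : ℝ)) * (t : ℝ) : ℝ) : ℂ) • (T.left l l + T.right l l)) *
          ((((1 - (t : ℝ)) * (t : ℝ) : ℝ) : ℂ) • (T.left l l + T.right l l))
      rw [T.e_mul _ (norm_rot t), if_pos hjk, T.e_eq]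
      set c : ℝ := (1 - (t : ℝ)) * (t : ℝ)
      have e1 : T.mid (rot t) i l + (((1 - (t : ℝ)) * (1 - (t : ℝ)) : ℝ) : ℂ) • T.left i l +
          ((((t : ℝ)) * (t : ℝ) : ℝ) : ℂ) • T.right i l -
          (T.mid (rot t) i l + ((1 - (t : ℝ) : ℝ) : ℂ) • T.left i l +
            ((t : ℝ) : ℂ) • T.right i l) = ((-c : ℝ) : ℂ) • (T.left i l + T.right i l) := by
        simp only [c]; push_cast; module
      rw [e1]
      simp [star_smul, star_add, T.star_left, T.star_right, smul_mul_smul_comm, mul_add, add_mul,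
        T.left_mul, T.right_mul, T.left_right, T.right_left]
    rw [e]
    refine le_trans ?_ ((hWτ τ hτ))
    have hall : pull ψ τ (star (Y l) * Y l) ≤ ∑ m, pull ψ τ (star (Y m) * Y m) :=
      Finset.single_le_sum (f := fun m => pull ψ τ (star (Y m) * Y m))
        (fun m _ => pull_nonneg hτ _) (Finset.mem_univ l)
    refine hall.trans ?_
    rw [← pull_sum]
    have e2 : W = (∑ m, star (Y m) * Y m) + K + W * W := by
      refine ext_pointwise fun t => ?_
      simp only [AddMemClass.coe_add, Pi.add_apply, AddSubmonoidClass.coe_finsetSum,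
        Finset.sum_apply, mul_pointwise, hW]
      show _ = (∑ m, star ((((1 - (t : ℝ)) * (t : ℝ) : ℝ) : ℂ) • (T.left m m + T.right m m)) *
          ((((1 - (t : ℝ)) * (t : ℝ) : ℝ) : ℂ) • (T.left m m + T.right m m))) +
        (((1 - (t : ℝ)) * (t : ℝ) * (1 - (1 - (t : ℝ)) * (t : ℝ)) : ℝ) : ℂ) •
          ((1 - T.P) * T.Q + T.P * (1 - T.Q)) + _
      simp only [star_smul, star_add, T.star_left, T.star_right, smul_mul_smul_comm, mul_add,
        add_mul, T.left_mul, T.right_mul, T.left_right, T.right_left, if_true, smul_zero, add_zero,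
        zero_add, Finset.sum_add_distrib, ← Finset.smul_sum, T.sum_left, T.sum_right]
      simp only [mul_sub, sub_mul, mul_one, one_mul, T.P_idem, T.Q_idem, T.P_Q, Complex.star_def,
        Complex.conj_ofReal]
      push_cast
      module
    have h := congrArg (pull ψ τ) e2
    rw [pull_add, pull_add] at h
    let K' : dropAlgebra p q := ⟨_, scalar_mem
      (g := fun t => Real.sqrt ((1 - (t : ℝ)) * (t : ℝ) * (1 - (1 - (t : ℝ)) * (t : ℝ))))
      (by fun_prop) (by simp) (by simp) ((1 - T.P) * T.Q + T.P * (1 - T.Q))⟩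
    have hK : K = star K' * K' := by
      refine ext_pointwise fun t => ?_
      rw [mul_pointwise]
      show _ = star ((Real.sqrt ((1 - (t : ℝ)) * (t : ℝ) * (1 - (1 - (t : ℝ)) * (t : ℝ))) : ℂ) •
          ((1 - T.P) * T.Q + T.P * (1 - T.Q))) *
        ((Real.sqrt ((1 - (t : ℝ)) * (t : ℝ) * (1 - (1 - (t : ℝ)) * (t : ℝ))) : ℂ) •
          ((1 - T.P) * T.Q + T.P * (1 - T.Q)))
      rw [star_smul, hJs, smul_mul_smul_comm, idem, Complex.star_def, Complex.conj_ofReal,
        ← Complex.ofReal_mul, Real.mul_self_sqrt]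
      · have h0 := t.2.1; have h1 := t.2.2
        exact mul_nonneg (mul_nonneg (sub_nonneg.2 h1) h0) (by nlinarith)
    linarith [hK ▸ pull_nonneg (ψ := ψ) hτ K']
  -- the units are contractions
  have hnorm : ∀ i j, ‖ψ (E i j)‖ ≤ 1 := by
    intro i j
    let α : unitInterval → ℝ := fun t => 1 - Real.sqrt (1 - (1 - (t : ℝ)) ^ 2)
    let β : unitInterval → ℝ := fun t => 1 - Real.sqrt (1 - (t : ℝ) ^ 2)
    let Z : dropAlgebra p q := 1 - ⟨_, interp_mem hp hq (f := α) (g := β) (by fun_prop)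
      (by fun_prop) (by simp [α]) (by simp [β]) (by simp [α]) (by simp [β]) j j⟩
    have e : star (E i j) * E i j + star Z * Z = 1 := by
      refine ext_pointwise fun t => ?_
      simp only [AddMemClass.coe_add, Pi.add_apply, mul_pointwise, OneMemClass.coe_one,
        Pi.one_apply]
      show star (T.e (rot t) _ _ i j) * T.e (rot t) _ _ i j +
        star (1 - T.e (rot t) (α t) (β t) j j) * (1 - T.e (rot t) (α t) (β t) j j) = 1
      rw [T.e_star, T.e_mul _ (norm_rot t), if_pos rfl, star_sub, star_one, T.e_star,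
        show ∀ x : Matrix (Fin p × Fin q) (Fin p × Fin q) ℂ,
          (1 - x) * (1 - x) = 1 - (x + x) + x * x from fun x => by noncomm_ring,
        T.e_mul _ (norm_rot t), if_pos rfl, T.e_eq]
      have ha : ∀ x : ℝ, 0 ≤ x → x ≤ 1 → (1 - Real.sqrt (1 - x ^ 2)) * (1 - Real.sqrt (1 - x ^ 2)) =
          2 * (1 - Real.sqrt (1 - x ^ 2)) - x * x := fun x h0 h1 => by
        nlinarith [Real.mul_self_sqrt (show 0 ≤ 1 - x ^ 2 by nlinarith)]
      simp only [α, β, ha _ (sub_nonneg.2 t.2.2) (sub_le_self _ t.2.1), ha _ t.2.1 t.2.2]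
      push_cast
      module
    refine norm_le_one_of (X := ψ Z) ?_
    rw [← map_star, ← map_star, ← map_mul ψ, ← map_mul ψ, ← map_add, e, map_one]
  refine ⟨fun i j => ψ (E i j), hnorm, fun i j k l τ hτ => ?_, fun i j τ hτ => ?_,
    fun τ hτ => ?_, fun c hc i j τ hτ => ?_⟩
  · have h := hD i j k l τ hτ
    rw [pull, map_mul ψ, map_star, map_sub, map_mul ψ,
      apply_ite (fun x : dropAlgebra p q => ψ x), map_zero] at h
    exact h.trans_lt (by linarith)
  · have e : star (E i j) = E j i := ext_pointwise fun t => T.e_star _ _ _ _ _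
    simp [← map_star, e, hε]
  · have h : pull ψ τ (W * W) ≤ ε / 2 := (hsq τ hτ).trans (hWτ τ hτ)
    have hs : star W = W := ext_pointwise fun t => by
      show star ((W).1 t) = _
      rw [hW]
      simp [star_smul, star_sub, T.P_star, T.Q_star]
    have e : ∑ i, ψ (E i i) - 1 = -ψ W := by simp [hWdef, map_sum]
    rw [e, star_neg, neg_mul_neg, ← map_star, ← map_mul ψ, hs]
    exact lt_of_le_of_lt h (by linarith)
  · have : Nontrivial A := not_subsingleton_iff_nontrivial.1 fun _ => by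
      have := hτ.1
      rw [Subsingleton.elim (1 : A) 0, map_zero] at this
      exact zero_ne_one this
    have h1 : ‖c * ψ (E i j) - ψ (E i j) * c‖ ≤ min (ε / 2) 1 :=
      hψ c hc (E i j).1 (E i j).2 (hnorm i j)
    refine lt_of_le_of_lt ((Complex.re_le_norm _).trans ((norm_trace_le hτ _).trans_eq
      CStarRing.norm_star_mul_self)) ?_
    have h2 : min (ε / 2) 1 ≤ ε / 2 := min_le_left _ _
    nlinarith [norm_nonneg (c * ψ (E i j) - ψ (E i j) * c), min_le_right (ε / 2) 1]

end Vale.Agent.P095.Drop
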